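import Mathlib

set_option autoImplicit false

open MvPolynomial

namespace Vale.Agent.P181.TRT.H153

section Abstract

variable {R : Type} [CommRing R] {S M : Type} [Fintype S] [DecidableEq S] [Fintype M]
  [DecidableEq M]

/-- the determinant of a family of columns. -/
noncomputable def D {K : Type} [Fintype K] [DecidableEq K] (c : K → K → R) : R :=
  (Matrix.of c).det

/-- **Expansion**: Cramer in every place of the second block. -/
theorem expand (j : S ⊕ M → (S ⊕ M) ⊕ S → R) (i : S → (S ⊕ M) ⊕ S → R)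
    (b : S ⊕ S → (S ⊕ M) ⊕ S → R)
    (Δ : R) (hΔ : Δ = D (Sum.elim (Sum.elim (b ∘ Sum.inl) (j ∘ Sum.inr)) (b ∘ Sum.inr))) 
    (cr : S → S ⊕ S → R)
    (hcr : ∀ k t, cr k t = Matrix.cramer (Matrix.of
      (Sum.elim (Sum.elim (b ∘ Sum.inl) (j ∘ Sum.inr)) (b ∘ Sum.inr))).transpose (i k)
        (Sum.elim (Sum.inl ∘ Sum.inl) Sum.inr t)) :
    Δ ^ Fintype.card S * D (Sum.elim j i) =
      ∑ r : S → S ⊕ S, (∏ k, cr k (r k)) * D (Sum.elim j (b ∘ r)) := by
  classical
  set c : (S ⊕ M) ⊕ S → (S ⊕ M) ⊕ S → R :=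
    Sum.elim (Sum.elim (b ∘ Sum.inl) (j ∘ Sum.inr)) (b ∘ Sum.inr) with hc
  set g : MultilinearMap R (fun _ : S => ((S ⊕ M) ⊕ S → R)) R :=
    (Matrix.detRowAlternating (R := R) (n := (S ⊕ M) ⊕ S)).toMultilinearMap.currySum
      (fun q => j q) with hg
  have hgD : ∀ w : S → (S ⊕ M) ⊕ S → R, g w = D (Sum.elim j w) := by
    intro w
    rw [hg, MultilinearMap.currySum_apply]
    rfl
  have h1 : ∀ k, Δ • i k = ∑ q, Matrix.cramer (Matrix.of c).transpose (i k) q • c q := by
    intro k
    have h2 := Matrix.mulVec_cramer (Matrix.of c).transpose (i k)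
    rw [Matrix.det_transpose] at h2
    rw [hΔ, D, ← h2]
    funext p
    rw [Matrix.mulVec, dotProduct, Finset.sum_apply]
    apply Finset.sum_congr rfl
    intro q _
    rw [Matrix.transpose_apply, Matrix.of_apply, Pi.smul_apply, smul_eq_mul, mul_comm]
  have h3 : Δ ^ Fintype.card S * D (Sum.elim j i) = g (fun k => Δ • i k) := by
    rw [MultilinearMap.map_smul_univ, hgD, Finset.prod_const, Finset.card_univ, smul_eq_mul]
  rw [h3]
  rw [show (fun k => Δ • i k) = fun k =>
    ∑ q, Matrix.cramer (Matrix.of c).transpose (i k) q • c q from funext h1]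
  rw [MultilinearMap.map_sum]
  have h4 : ∀ r : S → (S ⊕ M) ⊕ S,
      g (fun k => Matrix.cramer (Matrix.of c).transpose (i k) (r k) • c (r k)) =
        (∏ k, Matrix.cramer (Matrix.of c).transpose (i k) (r k)) * D (Sum.elim j (c ∘ r)) := by
    intro r
    rw [MultilinearMap.map_smul_univ, hgD, smul_eq_mul]
    rfl
  rw [Finset.sum_congr rfl fun r _ => h4 r]
  set em : S ⊕ S → (S ⊕ M) ⊕ S := Sum.elim (Sum.inl ∘ Sum.inl) Sum.inr with hem
  have hcem : ∀ t, c (em t) = b t := by
    rintro (t | t) <;> rfl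
  have hinj : Function.Injective (fun r : S → S ⊕ S => em ∘ r) := by
    intro r r' h
    funext k
    have h5 := congrFun h k
    simp only [Function.comp_apply] at h5
    rcases h6 : r k with t | t <;> rcases h7 : r' k with t' | t' <;>
      simp_all
  symm
  apply Finset.sum_of_injOn (fun r : S → S ⊕ S => em ∘ r) hinj.injOn
  · intro r _
    exact Finset.mem_coe.2 (Finset.mem_univ _)
  · intro r _ hr
    have h8 : ∃ k, ∃ m : M, r k = Sum.inl (Sum.inr m) := by
      by_contra hno
      push Not at hno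
      apply hr
      refine ⟨fun k => match r k with
        | Sum.inl (Sum.inl t) => Sum.inl t
        | Sum.inl (Sum.inr m) => Sum.inl k
        | Sum.inr t => Sum.inr t, Finset.mem_coe.2 (Finset.mem_univ _), ?_⟩
      funext k
      simp only [Function.comp_apply]
      rcases h9 : r k with (t | m) | t
      · rfl
      · exact absurd h9 (hno k m)
      · rfl
    obtain ⟨k, m, hk⟩ := h8
    have h10 : D (Sum.elim j (c ∘ r)) = 0 := by
      apply Matrix.det_zero_of_row_eq (i := Sum.inl (Sum.inr m)) (j := Sum.inr k)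
      · simp
      · funext p
        simp [Matrix.of_apply, hk, hc]
    rw [h10, mul_zero]
  · intro r _
    congr 1
    · apply Finset.prod_congr rfl
      intro k _
      rw [hcr]
      rfl
    · congr 2
      funext k
      exact (hcem (r k)).symm

end Abstract

section Minor

variable {ι : Type} {n : ℕ} {K : Type} [Fintype K] [DecidableEq K]

/-- The minor with the rows `row` and the letters `x`. -/
noncomputable def mn (row : K → Fin n) (x : K → ι) : MvPolynomial (Fin n × ι) ℂ :=
  D fun q p => X (row p, x q)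

lemma mn_ne_zero (row : K → Fin n) (x : K → ι) (hr : Function.Injective row)
    (hx : Function.Injective x) : mn row x ≠ 0 := by
  classical
  intro h
  have h1 := congrArg (MvPolynomial.eval fun v : Fin n × ι =>
    if ∃ q, v = (row q, x q) then (1 : ℂ) else 0) h
  rw [mn, D, RingHom.map_det, map_zero] at h1
  have h2 : (MvPolynomial.eval fun v : Fin n × ι =>
      if ∃ q, v = (row q, x q) then (1 : ℂ) else 0).mapMatrix
      (Matrix.of fun q p : K => (X (row p, x q) : MvPolynomial (Fin n × ι) ℂ)) = 1 := by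
    ext q p
    rw [RingHom.mapMatrix_apply, Matrix.map_apply, Matrix.of_apply, MvPolynomial.eval_X]
    by_cases hqp : q = p
    · subst hqp
      rw [Matrix.one_apply_eq, if_pos ⟨q, rfl⟩]
    · rw [Matrix.one_apply_ne hqp, if_neg]
      rintro ⟨t, ht⟩
      rw [Prod.mk.injEq] at ht
      exact hqp ((hx ht.2).trans (hr ht.1).symm)
  rw [h2, Matrix.det_one] at h1
  exact one_ne_zero h1

lemma rename_mn (row : K → Fin n) (x : K → ι) (e : ι → ι) :
    rename (fun p : Fin n × ι => (p.1, e p.2)) (mn row x) = mn row (e ∘ x) := by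
  rw [mn, mn, D, D]
  erw [AlgHom.map_det]
  congr 1
  ext1 q p
  simp [AlgHom.mapMatrix_apply, Matrix.map_apply, rename_X]

lemma mn_perm (row : K → Fin n) (x : K → ι) (σ : Equiv.Perm K) :
    mn row (x ∘ σ) = (Equiv.Perm.sign σ : ℤ) * mn row x := by
  rw [mn, mn, D, D]
  exact Matrix.det_permute σ (Matrix.of fun q p : K => (X (row p, x q) : MvPolynomial _ ℂ))

end Minor

section Block

variable {ι : Type} {n : ℕ} {S M M' : Type} [Fintype S] [DecidableEq S] [Fintype M]
  [DecidableEq M] [Fintype M'] [DecidableEq M']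

/-- An extension of a map of the first half to a permutation of `2 s` letters. -/
noncomputable def ext (r : S → S ⊕ S) : Equiv.Perm (S ⊕ S) :=
  Classical.epsilon fun π : Equiv.Perm (S ⊕ S) => ∀ k, π (Sum.inl k) = r k

lemma ext_spec (r : S → S ⊕ S) (hr : Function.Injective r) (k : S) :
    ext r (Sum.inl k) = r k := by
  classical
  have h : ∃ π : Equiv.Perm (S ⊕ S), ∀ k, π (Sum.inl k) = r k := by
    let f : {x : S ⊕ S // x ∈ Set.range (Sum.inl : S → S ⊕ S)} ≃
        {x : S ⊕ S // x ∈ Set.range r} :=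
      (Equiv.ofInjective _ Sum.inl_injective).symm.trans (Equiv.ofInjective r hr)
    refine ⟨f.extendSubtype, fun k => ?_⟩
    rw [Equiv.extendSubtype_apply_of_mem f (Sum.inl k) ⟨k, rfl⟩]
    have : (Equiv.ofInjective (Sum.inl : S → S ⊕ S) Sum.inl_injective).symm
        ⟨Sum.inl k, ⟨k, rfl⟩⟩ = k := Equiv.ofInjective_symm_apply _ k
    simp only [f, Equiv.trans_apply, this, Equiv.ofInjective_apply]
  exact Classical.epsilon_spec h k

/-- The family of the block. -/
noncomputable def uu (row : (S ⊕ M) ⊕ S → Fin n) (row' : S ⊕ M' → Fin n) (J : S → ι)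
    (B : S ⊕ S → ι) (Φ : M → ι) (Φ' : M' → ι) (r : S → S ⊕ S) : MvPolynomial (Fin n × ι) ℂ :=
  mn row (Sum.elim (Sum.elim J Φ) (B ∘ ext r ∘ Sum.inl)) *
    mn row' (Sum.elim (B ∘ ext r ∘ Sum.inr) Φ')

/-- **The block**: two columns of the lengths `2 s + m`, `s + m'` kill every `e` which maps a
letter of `J` to a letter of `I`. -/
theorem block (row : (S ⊕ M) ⊕ S → Fin n) (row' : S ⊕ M' → Fin n)
    (hrow : Function.Injective row) (hrow' : Function.Injective row')
    (J I : S → ι) (B : S ⊕ S → ι) (Φ : M → ι) (Φ' : M' → ι)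
    (h1 : Function.Injective (Sum.elim (Sum.elim J Φ) I))
    (h2 : Function.Injective (Sum.elim (Sum.elim (B ∘ Sum.inl) Φ) (B ∘ Sum.inr)))
    (h3 : Function.Injective (Sum.elim B Φ')) :
    ∃ a : (S → S ⊕ S) → MvPolynomial (Fin n × ι) ℂ,
      ∑ r, a r * uu row row' J B Φ Φ' r ≠ 0 ∧
      ∀ e : Equiv.Perm ι, (∀ t, e (B t) = B t) → (∃ τ : Equiv.Perm M, e ∘ Φ = Φ ∘ τ) →
        (∃ τ : Equiv.Perm M', e ∘ Φ' = Φ' ∘ τ) → (∃ s s', e (J s) = I s') →
        ∑ r, a r * rename (fun p : Fin n × ι => (p.1, e p.2)) (uu row row' J B Φ Φ' r) = 0 := by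
  classical
  set vec : ι → (S ⊕ M) ⊕ S → MvPolynomial (Fin n × ι) ℂ := fun x p => X (row p, x) with hvec
  set Δ : MvPolynomial (Fin n × ι) ℂ :=
    mn row (Sum.elim (Sum.elim (B ∘ Sum.inl) Φ) (B ∘ Sum.inr)) with hΔ
  set c : (S ⊕ M) ⊕ S → (S ⊕ M) ⊕ S → MvPolynomial (Fin n × ι) ℂ := fun q =>
    vec (Sum.elim (Sum.elim (B ∘ Sum.inl) Φ) (B ∘ Sum.inr) q) with hc
  set cr : S → S ⊕ S → MvPolynomial (Fin n × ι) ℂ := fun k t =>
    Matrix.cramer (Matrix.of c).transpose (vec (I k))
      (Sum.elim (Sum.inl ∘ Sum.inl) Sum.inr t) with hcr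
  set E : (S → S ⊕ S) → MvPolynomial (Fin n × ι) ℂ := fun r =>
    mn row' (Sum.elim (B ∘ ext r ∘ Sum.inr) Φ') with hE
  set N : MvPolynomial (Fin n × ι) ℂ := ∏ r, E r with hN
  have hexp : ∀ J' : S → ι, Δ ^ Fintype.card S * mn row (Sum.elim (Sum.elim J' Φ) I) =
      ∑ r : S → S ⊕ S, (∏ k, cr k (r k)) * mn row (Sum.elim (Sum.elim J' Φ) (B ∘ r)) := by
    intro J'
    have h := expand (R := MvPolynomial (Fin n × ι) ℂ) (S := S) (M := M)
      (fun q => vec (Sum.elim J' Φ q)) (fun k => vec (I k)) (fun t => vec (B t)) Δ ?_ cr ?_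
    · have h4 : ∀ w : S → ι, D (Sum.elim (fun q => vec (Sum.elim J' Φ q)) fun k => vec (w k)) =
          mn row (Sum.elim (Sum.elim J' Φ) w) := by
        intro w
        rw [mn]
        congr 1
        funext q
        rcases q with q | q <;> rfl
      rw [h4 I] at h
      rw [h]
      apply Finset.sum_congr rfl
      intro r _
      congr 1
      exact h4 (B ∘ r)
    · rw [hΔ, mn]
      congr 1
      funext q
      rcases q with (q | q) | q <;> rfl
    · intro k t
      rw [hcr]
      have h5 : c = Sum.elim (Sum.elim ((fun t => vec (B t)) ∘ Sum.inl)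
          ((fun q => vec (Sum.elim J' Φ q)) ∘ Sum.inr)) ((fun t => vec (B t)) ∘ Sum.inr) := by
        funext q
        rcases q with (q | q) | q <;> rfl
      rw [← h5]
  -- only injective `r` count
  have hinj : ∀ J' : S → ι, ∀ r : S → S ⊕ S,
      (∏ k, cr k (r k)) * mn row (Sum.elim (Sum.elim J' Φ) (B ∘ r)) =
      (if Function.Injective r then ∏ k, cr k (r k) else 0) *
        mn row (Sum.elim (Sum.elim J' Φ) (B ∘ ext r ∘ Sum.inl)) := by
    intro J' r
    by_cases hr : Function.Injective r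
    · rw [if_pos hr]
      congr 3
      funext k
      simp only [Function.comp_apply]
      rw [ext_spec r hr k]
    · rw [if_neg hr, zero_mul]
      have h6 : ∃ k k', r k = r k' ∧ k ≠ k' := by
        by_contra hno
        push Not at hno
        exact hr fun k k' h => hno k k' h
      obtain ⟨k, k', hkk, hne⟩ := h6
      have h7 : mn row (Sum.elim (Sum.elim J' Φ) (B ∘ r)) = 0 := by
        rw [mn, D]
        apply Matrix.det_zero_of_row_eq (i := Sum.inr k) (j := Sum.inr k')
        · intro h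
          exact hne (Sum.inr_injective h)
        · funext p
          simp [Matrix.of_apply, hkk]
      rw [h7, mul_zero]
  have hdom : ∀ r, E r ≠ 0 := by
    intro r
    apply mn_ne_zero _ _ hrow'
    have h8 : (Sum.elim (B ∘ ext r ∘ Sum.inr) Φ' : S ⊕ M' → ι) =
        Sum.elim B Φ' ∘ Sum.map (ext r ∘ Sum.inr) id := by
      funext q
      rcases q with q | q <;> rfl
    rw [h8]
    refine h3.comp (Sum.map_injective.2 ⟨(ext r).injective.comp Sum.inr_injective,
      Function.injective_id⟩)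
  refine ⟨fun r => (if Function.Injective r then ∏ k, cr k (r k) else 0) *
    ∏ r' ∈ Finset.univ.erase r, E r', ?_, ?_⟩
  · have h9 : ∑ r, ((if Function.Injective r then ∏ k, cr k (r k) else 0) *
        ∏ r' ∈ Finset.univ.erase r, E r') * uu row row' J B Φ Φ' r =
        N * (Δ ^ Fintype.card S * mn row (Sum.elim (Sum.elim J Φ) I)) := by
      rw [hexp, Finset.mul_sum]
      apply Finset.sum_congr rfl
      intro r _
      rw [hinj J r, uu, hN, ← Finset.mul_prod_erase Finset.univ E (Finset.mem_univ r)]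
      ring
    rw [h9]
    apply mul_ne_zero (Finset.prod_ne_zero_iff.2 fun r _ => hdom r)
    exact mul_ne_zero (pow_ne_zero _ (mn_ne_zero _ _ hrow h2)) (mn_ne_zero _ _ hrow h1)
  · intro e heB ⟨τ, hτ⟩ ⟨τ', hτ'⟩ ⟨s, s', hs⟩
    have hu : ∀ r, rename (fun p : Fin n × ι => (p.1, e p.2)) (uu row row' J B Φ Φ' r) =
        ((Equiv.Perm.sign τ : ℤ) * (Equiv.Perm.sign τ' : ℤ) : MvPolynomial (Fin n × ι) ℂ) *
          (mn row (Sum.elim (Sum.elim (e ∘ J) Φ) (B ∘ ext r ∘ Sum.inl)) * E r) := by
      intro r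
      rw [uu, map_mul, rename_mn, rename_mn]
      have h10 : (e ∘ Sum.elim (Sum.elim J Φ) (B ∘ ext r ∘ Sum.inl) : (S ⊕ M) ⊕ S → ι) =
          Sum.elim (Sum.elim (e ∘ J) Φ) (B ∘ ext r ∘ Sum.inl) ∘
            (Equiv.sumCongr (Equiv.sumCongr (Equiv.refl S) τ) (Equiv.refl S)) := by
        funext q
        rcases q with (q | q) | q
        · rfl
        · exact congrFun hτ q
        · exact heB _
      have h11 : (e ∘ Sum.elim (B ∘ ext r ∘ Sum.inr) Φ' : S ⊕ M' → ι) =
          Sum.elim (B ∘ ext r ∘ Sum.inr) Φ' ∘ (Equiv.sumCongr (Equiv.refl S) τ') := by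
        funext q
        rcases q with q | q
        · exact heB _
        · exact congrFun hτ' q
      rw [h10, h11, mn_perm, mn_perm]
      have h12 : Equiv.Perm.sign (Equiv.sumCongr (Equiv.sumCongr (Equiv.refl S) τ)
          (Equiv.refl S)) = Equiv.Perm.sign τ := by
        rw [Equiv.Perm.sign_sumCongr, Equiv.Perm.sign_sumCongr]
        simp
      have h13 : Equiv.Perm.sign (Equiv.sumCongr (Equiv.refl S) τ') = Equiv.Perm.sign τ' := by
        rw [Equiv.Perm.sign_sumCongr]
        simp
      rw [h12, h13]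
      ring
    have h14 : ∑ r, ((if Function.Injective r then ∏ k, cr k (r k) else 0) *
        ∏ r' ∈ Finset.univ.erase r, E r') *
          rename (fun p : Fin n × ι => (p.1, e p.2)) (uu row row' J B Φ Φ' r) =
        ((Equiv.Perm.sign τ : ℤ) * (Equiv.Perm.sign τ' : ℤ) : MvPolynomial (Fin n × ι) ℂ) *
        (N * (Δ ^ Fintype.card S * mn row (Sum.elim (Sum.elim (e ∘ J) Φ) I))) := by
      rw [hexp, Finset.mul_sum, Finset.mul_sum]
      apply Finset.sum_congr rfl
      intro r _
      rw [hinj (e ∘ J) r, hu, hN, ← Finset.mul_prod_erase Finset.univ E (Finset.mem_univ r)]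
      ring
    rw [h14]
    have h15 : mn row (Sum.elim (Sum.elim (e ∘ J) Φ) I) = 0 := by
      rw [mn, D]
      apply Matrix.det_zero_of_row_eq (i := Sum.inl (Sum.inl s)) (j := Sum.inr s')
      · simp
      · funext p
        simp [Matrix.of_apply, hs]
    rw [h15, mul_zero, mul_zero, mul_zero]

end Block

end Vale.Agent.P181.TRT.H153
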