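import Vale.Agent.P181.TRT.Defs
import Vale.Agent.P181.SZR5b.Mark
import Vale.Agent.P181.TRT.H153.Core

set_option autoImplicit false

/-!
# P181, TR: a block of two columns (TR3)
-/

open MvPolynomial

namespace Vale.Agent.P181.TRT.H153

open Vale.Agent.P181.T4 (HW mem_HW_iff_isWeightedHomogeneous)
open Vale.Agent.P181.TL (KK)
open Vale.Agent.P181.SZR5b (colW col_iff Dm Dm_HW HW_mul HW_one)

section rows

variable {m r : ℕ} {σ K : Type} [Fintype K] [DecidableEq K]

/-- The first `r` rows. -/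
noncomputable def rows (h : Fintype.card K = r) (hr : r ≤ m) (q : K) : Fin m :=
  Fin.castLE hr (Fintype.equivFinOfCardEq h q)

omit [DecidableEq K] in
lemma rows_inj (h : Fintype.card K = r) (hr : r ≤ m) : Function.Injective (rows (m := m) h hr) :=
  (Fin.castLE_injective hr).comp (Fintype.equivFinOfCardEq h).injective

lemma mn_eq_Dm (h : Fintype.card K = r + 1) (hr : r < m) (x : K → σ) :
    mn (rows (m := m) h hr) x = Dm hr (x ∘ (Fintype.equivFinOfCardEq h).symm) := by
  rw [Dm, ← Matrix.det_submatrix_equiv_self (Fintype.equivFinOfCardEq h), mn, D,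
    ← Matrix.det_transpose]
  congr 1
  ext1 p q
  simp [rows, Matrix.submatrix_apply, Matrix.transpose_apply]

lemma mn_HW [Fintype σ] (h : Fintype.card K = r) (hr : r ≤ m) (x : K → σ) :
    mn (rows (m := m) h hr) x ∈ HW m σ (col m r) := by
  rcases r with _ | r
  · have : IsEmpty K := Fintype.card_eq_zero_iff.1 h
    have h1 : mn (rows (m := m) h hr) x = 1 := by
      rw [mn, D, Matrix.det_isEmpty]
    have h2 : col m 0 = 0 := by
      funext i
      simp [col]
    rw [h1, h2]
    exact HW_one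
  · rw [mn_eq_Dm h hr]
    have h3 : col m (r + 1) = fun i : Fin m => if (i : ℕ) ≤ r then 1 else 0 := by
      funext i
      simp only [col, Nat.lt_succ_iff]
    rw [h3]
    exact Dm_HW _ _

lemma mn_col [DecidableEq σ] (row : K → Fin m) (x : K → σ) :
    IsWeightedHomogeneous (colW m σ) (mn row x) (∑ q, (Pi.single (x q) 1 : σ → ℕ)) := by
  rw [mn, D, Matrix.det_apply, ← mem_weightedHomogeneousSubmodule]
  refine Submodule.sum_mem _ (fun p _ => ?_)
  rw [Units.smul_def]
  apply zsmul_mem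
  rw [mem_weightedHomogeneousSubmodule,
    ← Equiv.sum_comp p (fun q => (Pi.single (x q) 1 : σ → ℕ))]
  exact IsWeightedHomogeneous.prod _ _ _ (fun i _ => isWeightedHomogeneous_X _ _ _)

lemma cnt {L : Type} [Fintype L] [DecidableEq σ] (x : L → σ) (hx : Function.Injective x)
    (T : Finset σ) (hT : ∀ j, j ∈ T ↔ ∃ q, x q = j) (j : σ) :
    (∑ q, (Pi.single (x q) 1 : σ → ℕ)) j = if j ∈ T then 1 else 0 := by
  classical
  rw [Finset.sum_apply]
  by_cases hj : j ∈ T
  · rw [if_pos hj]
    obtain ⟨q, rfl⟩ := (hT j).1 hj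
    rw [Finset.sum_eq_single q]
    · exact Pi.single_eq_same _ _
    · intro q' _ hq'
      exact Pi.single_eq_of_ne (fun h => hq' (hx h).symm) _
    · intro h
      exact absurd (Finset.mem_univ _) h
  · rw [if_neg hj]
    refine Finset.sum_eq_zero (fun q _ => Pi.single_eq_of_ne (fun h => hj ?_) _)
    exact (hT j).2 ⟨q, h.symm⟩

end rows

/-- **(TR3)** -/
theorem blockT : BlockT := by
  classical
  intro m s r r' σ _ k J I B P P' hJ hI hB hP hP' hr hr' dJI dJP dIP dBP dBP' uB sP sP'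
  set eJ := J.equivFinOfCardEq hJ with heJ
  set eI := I.equivFinOfCardEq hI with heI
  let eB : Fin s ⊕ Fin s ≃ {x // x ∈ B} :=
    Fintype.equivOfCardEq (by simp [hB]; ring)
  let jf : Fin s → σ := fun i => ((eJ.symm i : {x // x ∈ J}) : σ)
  let nf : Fin s → σ := fun i => ((eI.symm i : {x // x ∈ I}) : σ)
  let bf : Fin s ⊕ Fin s → σ := fun t => ((eB t : {x // x ∈ B}) : σ)
  let pf : {x // x ∈ P} → σ := fun x => x
  let pf' : {x // x ∈ P'} → σ := fun x => x
  have jfi : Function.Injective jf := Subtype.val_injective.comp eJ.symm.injective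
  have nfi : Function.Injective nf := Subtype.val_injective.comp eI.symm.injective
  have bfi : Function.Injective bf := Subtype.val_injective.comp eB.injective
  have jfm : ∀ i, jf i ∈ J := fun i => (eJ.symm i).2
  have nfm : ∀ i, nf i ∈ I := fun i => (eI.symm i).2
  have bfm : ∀ i, bf i ∈ B := fun i => (eB i).2
  have pfm : ∀ x, pf x ∈ P := fun x => x.2
  have pfm' : ∀ x, pf' x ∈ P' := fun x => x.2
  have hdis : ∀ {S T : Finset σ}, Disjoint S T → ∀ {x y : σ}, x ∈ S → y ∈ T → x ≠ y :=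
    fun hd _ _ hx hy => Finset.disjoint_iff_ne.1 hd _ hx _ hy
  have hK : Fintype.card ((Fin s ⊕ {x // x ∈ P}) ⊕ Fin s) = r := by
    simp only [Fintype.card_sum, Fintype.card_fin, Fintype.card_coe]
    omega
  have hK' : Fintype.card (Fin s ⊕ {x // x ∈ P'}) = r' := by
    simp only [Fintype.card_sum, Fintype.card_fin, Fintype.card_coe]
    omega
  have h1 : Function.Injective (Sum.elim (Sum.elim jf pf) nf) := by
    refine Function.Injective.sumElim (Function.Injective.sumElim jfi Subtype.val_injective ?_)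
      nfi ?_
    · intro a b
      exact hdis dJP (jfm a) (pfm b)
    · rintro (a | a) b
      · exact hdis dJI (jfm a) (nfm b)
      · exact (hdis dIP (nfm b) (pfm a)).symm
  have h2 : Function.Injective (Sum.elim (Sum.elim (bf ∘ Sum.inl) pf) (bf ∘ Sum.inr)) := by
    refine Function.Injective.sumElim (Function.Injective.sumElim (bfi.comp Sum.inl_injective)
      Subtype.val_injective ?_) (bfi.comp Sum.inr_injective) ?_
    · intro a b
      exact hdis dBP (bfm _) (pfm b)
    · rintro (a | a) b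
      · intro h
        exact Sum.inl_ne_inr (bfi h)
      · exact (hdis dBP (bfm _) (pfm a)).symm
  have h3 : Function.Injective (Sum.elim bf pf') :=
    Function.Injective.sumElim bfi Subtype.val_injective fun a b => hdis dBP' (bfm a) (pfm' b)
  obtain ⟨a, ha0, ha⟩ := block (rows (m := m) hK hr) (rows (m := m) hK' hr') (rows_inj _ _)
    (rows_inj _ _) jf nf bf pf pf' h1 h2 h3
  refine ⟨Fin s → Fin s ⊕ Fin s, inferInstance,
    uu (rows (m := m) hK hr) (rows (m := m) hK' hr') jf bf pf pf', a, ?_, ?_, ha0⟩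
  · intro f
    refine ⟨HW_mul (mn_HW _ _ _) (mn_HW _ _ _), ?_⟩
    rw [col_iff, uu]
    have h4 := (mn_col (rows (m := m) hK hr) (Sum.elim (Sum.elim jf pf) (bf ∘ ext f ∘ Sum.inl))).mul
      (mn_col (rows (m := m) hK' hr') (Sum.elim (bf ∘ ext f ∘ Sum.inr) pf'))
    refine (congrArg (IsWeightedHomogeneous (colW m σ) _) ?_).mpr h4
    have h5 : ∀ j, (∑ q, (Pi.single (jf q) 1 : σ → ℕ)) j = if j ∈ J then 1 else 0 := by
      refine cnt jf jfi J fun j => ⟨fun hj => ⟨eJ ⟨j, hj⟩, ?_⟩, ?_⟩
      · simp [jf]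
      · rintro ⟨q, rfl⟩
        exact jfm q
    have h6 : ∀ j, (∑ q, (Pi.single (bf (ext f q)) 1 : σ → ℕ)) j = if j ∈ B then 1 else 0 := by
      intro j
      rw [Equiv.sum_comp (ext f) (fun q => (Pi.single (bf q) 1 : σ → ℕ))]
      refine cnt bf bfi B (fun j => ⟨fun hj => ⟨eB.symm ⟨j, hj⟩, ?_⟩, ?_⟩) j
      · simp [bf]
      · rintro ⟨q, rfl⟩
        exact bfm q
    have h7 : ∀ j, (∑ q, (Pi.single (pf q) 1 : σ → ℕ)) j = if j ∈ P then 1 else 0 := by
      refine cnt pf Subtype.val_injective P fun j => ⟨fun hj => ⟨⟨j, hj⟩, rfl⟩, ?_⟩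
      rintro ⟨q, rfl⟩
      exact pfm q
    have h8 : ∀ j, (∑ q, (Pi.single (pf' q) 1 : σ → ℕ)) j = if j ∈ P' then 1 else 0 := by
      refine cnt pf' Subtype.val_injective P' fun j => ⟨fun hj => ⟨⟨j, hj⟩, rfl⟩, ?_⟩
      rintro ⟨q, rfl⟩
      exact pfm' q
    funext j
    have h5 := h5 j
    have h6 := h6 j
    have h7 := h7 j
    have h8 := h8 j
    simp only [Fintype.sum_sum_type, Pi.add_apply, Sum.elim_inl, Sum.elim_inr,
      Function.comp_apply] at h5 h6 h7 h8 ⊢
    omega
  · intro e he hJe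
    obtain ⟨j, hj, hjI⟩ := hJe
    have hst : ∀ (Q : Finset σ), (∀ p ∈ Q, ∀ j, k j = k p → j ∈ Q) →
        ∃ τ : Equiv.Perm {x // x ∈ Q},
          (e : σ → σ) ∘ (fun x : {x // x ∈ Q} => (x : σ)) =
            (fun x : {x // x ∈ Q} => (x : σ)) ∘ τ := by
      intro Q hQ
      let g : {x // x ∈ Q} → {x // x ∈ Q} := fun x => ⟨e x, hQ x x.2 _ (he x)⟩
      have hg : Function.Injective g := by
        intro x y hxy
        have h9 : e (x : σ) = e (y : σ) := congrArg Subtype.val hxy
        exact Subtype.ext (e.injective h9)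
      exact ⟨Equiv.ofBijective g (Finite.injective_iff_bijective.1 hg), rfl⟩
    refine ha e (fun t => uB _ (bfm t) _ (he _)) (hst P sP) (hst P' sP') ⟨eJ ⟨j, hj⟩,
      eI ⟨e j, hjI⟩, ?_⟩
    simp [jf, nf]

end Vale.Agent.P181.TRT.H153
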